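import Vale.Agent.P022.H431.Sv.Defs
import Mathlib.GroupTheory.Solvable
import Mathlib.FieldTheory.IsAlgClosed.Basic

/-!
P022-L3, [SOLV], row [GRP]: a solvable subgroup of `GL₂(k)`, `k` algebraically closed of
characteristic 2, is triangular or monomial.
-/

open Matrix

noncomputable section

namespace Vale.Agent.P022.H783.Sv

variable {k : Type} [Field k]

/-- a nonscalar matrix of size 2 over an algebraically closed field has a normal form -/
lemma normal [IsAlgClosed k] (b : Matrix (Fin 2) (Fin 2) k) (hb : ∀ c : k, b ≠ c • 1) :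
    ∃ (P : GL (Fin 2) k) (l m x : k), b * (P : Matrix (Fin 2) (Fin 2) k) =
      (P : Matrix (Fin 2) (Fin 2) k) * !![l, x; 0, m] ∧ (l ≠ m ∧ x = 0 ∨ l = m ∧ x ≠ 0) := by
  -- step 1 : triangular form
  have h1 : ∃ (P : GL (Fin 2) k) (l m x : k), b * (P : Matrix (Fin 2) (Fin 2) k) =
      (P : Matrix (Fin 2) (Fin 2) k) * !![l, x; 0, m] := by
    by_cases hr : b 1 0 = 0
    · refine ⟨1, b 0 0, b 1 1, b 0 1, ?_⟩
      ext i j
      fin_cases i <;> fin_cases j <;> simp [hr]
    · -- a root of the characteristic polynomial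
      obtain ⟨l, hl⟩ : ∃ l : k, l ^ 2 - (b 0 0 + b 1 1) * l + (b 0 0 * b 1 1 - b 0 1 * b 1 0) = 0 := by
        have hd : (Polynomial.C (1 : k) * Polynomial.X ^ 2 +
            Polynomial.C (-(b 0 0 + b 1 1)) * Polynomial.X +
            Polynomial.C (b 0 0 * b 1 1 - b 0 1 * b 1 0)).degree = 2 :=
          Polynomial.degree_quadratic one_ne_zero
        obtain ⟨l, hl⟩ := IsAlgClosed.exists_root _ (by rw [hd]; decide)
        refine ⟨l, ?_⟩
        have h2 := hl
        simp only [Polynomial.IsRoot.def, Polynomial.eval_add, Polynomial.eval_mul,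
          Polynomial.eval_C, Polynomial.eval_pow, Polynomial.eval_X] at h2
        linear_combination h2
      have hdet : IsUnit (!![b 0 0 - (b 0 0 + b 1 1 - l), 1; b 1 0, 0] :
          Matrix (Fin 2) (Fin 2) k).det := by
        rw [det_fin_two_of, isUnit_iff_ne_zero]
        intro h
        apply hr
        linear_combination -h
      refine ⟨GeneralLinearGroup.mk'' _ hdet, l, b 0 0 + b 1 1 - l, 1, ?_⟩
      have hP : ((GeneralLinearGroup.mk'' _ hdet : GL (Fin 2) k) : Matrix (Fin 2) (Fin 2) k) =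
          !![b 0 0 - (b 0 0 + b 1 1 - l), 1; b 1 0, 0] := rfl
      rw [hP]
      ext i j
      fin_cases i <;> fin_cases j
      · simp [Matrix.mul_apply, Fin.sum_univ_two]
        linear_combination -hl
      · simp [Matrix.mul_apply, Fin.sum_univ_two]
      · simp [Matrix.mul_apply, Fin.sum_univ_two]
        ring
      · simp [Matrix.mul_apply, Fin.sum_univ_two]
  obtain ⟨P, l, m, x, hP⟩ := h1
  by_cases hlm : l = m
  · refine ⟨P, l, m, x, hP, Or.inr ⟨hlm, ?_⟩⟩
    rintro rfl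
    apply hb l
    subst hlm
    have h2 : (!![l, 0; 0, l] : Matrix (Fin 2) (Fin 2) k) = l • 1 := by
      ext i j
      fin_cases i <;> fin_cases j <;> simp
    rw [h2] at hP
    have h3 := congrArg (fun X => X * ((P⁻¹ : GL (Fin 2) k) : Matrix (Fin 2) (Fin 2) k)) hP
    simp only [Matrix.mul_assoc] at h3
    rw [← Units.val_mul, mul_inv_cancel] at h3
    simpa [smul_mul_assoc] using h3
  · have hml : m - l ≠ 0 := fun h => hlm (sub_eq_zero.1 h).symm
    have hdet : IsUnit (!![1, x / (m - l); 0, 1] : Matrix (Fin 2) (Fin 2) k).det := by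
      rw [det_fin_two_of]
      simp
    refine ⟨P * GeneralLinearGroup.mk'' _ hdet, l, m, 0, ?_, Or.inl ⟨hlm, rfl⟩⟩
    have hQ : ((GeneralLinearGroup.mk'' _ hdet : GL (Fin 2) k) : Matrix (Fin 2) (Fin 2) k) =
        !![1, x / (m - l); 0, 1] := rfl
    rw [Units.val_mul, ← Matrix.mul_assoc, hP, hQ, Matrix.mul_assoc, Matrix.mul_assoc]
    congr 1
    ext i j
    fin_cases i <;> fin_cases j
    · simp
    · simp
      field_simp
      ring
    · simp
    · simp

/-- the two diagonal characters of a triangular representation -/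
lemma tri {H : Type} [Group H] (σ : H →* GL (Fin 2) k)
    (h : ∀ g, (σ g : Matrix (Fin 2) (Fin 2) k) 1 0 = 0) :
    ∃ χ₁ χ₂ : H →* kˣ, ∀ g, (χ₁ g : k) = (σ g : Matrix (Fin 2) (Fin 2) k) 0 0 ∧
      (χ₂ g : k) = (σ g : Matrix (Fin 2) (Fin 2) k) 1 1 := by
  have hm0 : ∀ g g', (σ (g * g') : Matrix (Fin 2) (Fin 2) k) 0 0 =
      (σ g : Matrix (Fin 2) (Fin 2) k) 0 0 * (σ g' : Matrix (Fin 2) (Fin 2) k) 0 0 := by
    intro g g'
    rw [map_mul, Units.val_mul, Matrix.mul_apply, Fin.sum_univ_two, h g', mul_zero, add_zero]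
  have hm1 : ∀ g g', (σ (g * g') : Matrix (Fin 2) (Fin 2) k) 1 1 =
      (σ g : Matrix (Fin 2) (Fin 2) k) 1 1 * (σ g' : Matrix (Fin 2) (Fin 2) k) 1 1 := by
    intro g g'
    rw [map_mul, Units.val_mul, Matrix.mul_apply, Fin.sum_univ_two, h g, zero_mul, zero_add]
  have ho : ∀ i j, (σ 1 : Matrix (Fin 2) (Fin 2) k) i j = (1 : Matrix (Fin 2) (Fin 2) k) i j := by
    intro i j
    rw [map_one, Units.val_one]
  let f₁ : H →* k :=
    { toFun := fun g => (σ g : Matrix (Fin 2) (Fin 2) k) 0 0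
      map_one' := by rw [ho]; simp
      map_mul' := hm0 }
  let f₂ : H →* k :=
    { toFun := fun g => (σ g : Matrix (Fin 2) (Fin 2) k) 1 1
      map_one' := by rw [ho]; simp
      map_mul' := hm1 }
  exact ⟨f₁.toHomUnits, f₂.toHomUnits, fun g => ⟨rfl, rfl⟩⟩

/-- a scalar commutator is trivial in characteristic 2 -/
lemma comm_of_scalar [CharP k 2] (β γ : GL (Fin 2) k) (c : k)
    (h : ((β * γ * β⁻¹ * γ⁻¹ : GL (Fin 2) k) : Matrix (Fin 2) (Fin 2) k) = c • 1) :
    β * γ = γ * β := by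
  have e2 : ((β * γ : GL (Fin 2) k) : Matrix (Fin 2) (Fin 2) k) =
      c • ((γ * β : GL (Fin 2) k) : Matrix (Fin 2) (Fin 2) k) := by
    have e3 : β * γ = (β * γ * β⁻¹ * γ⁻¹) * (γ * β) := by group
    conv_lhs => rw [e3]
    rw [Units.val_mul, h, smul_mul_assoc, one_mul]
  have e4 := congrArg Matrix.det e2
  rw [Matrix.det_smul, Fintype.card_fin, Units.val_mul, Units.val_mul, Matrix.det_mul,
    Matrix.det_mul] at e4
  have hβ0 : (β : Matrix (Fin 2) (Fin 2) k).det ≠ 0 :=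
    ((Matrix.isUnit_iff_isUnit_det _).1 β.isUnit).ne_zero
  have hγ0 : (γ : Matrix (Fin 2) (Fin 2) k).det ≠ 0 :=
    ((Matrix.isUnit_iff_isUnit_det _).1 γ.isUnit).ne_zero
  have e5 : c ^ 2 = 1 := by
    have h3 : ((γ : Matrix (Fin 2) (Fin 2) k).det * (β : Matrix (Fin 2) (Fin 2) k).det) *
        (c ^ 2 - 1) = 0 := by linear_combination -e4
    rcases mul_eq_zero.1 h3 with h | h
    · exact absurd h (mul_ne_zero hγ0 hβ0)
    · exact sub_eq_zero.1 h
  have e6 : c = 1 := by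
    have h2 : (2 : k) = 0 := CharTwo.two_eq_zero
    have h3 : (c - 1) ^ 2 = 0 := by linear_combination e5 + (1 - c) * h2
    exact sub_eq_zero.1 ((pow_eq_zero_iff two_ne_zero).1 h3)
  rw [e6, one_smul] at e2
  exact Units.ext e2

open scoped commutatorElement in
/-- in a solvable linear group of degree 2 in characteristic 2 which is not scalar there is a
nonscalar element which commutes with all its conjugates -/
lemma exists_comm [CharP k 2] {G : Type} [Group G] (ρ : G →* GL (Fin 2) k)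
    (hs : Group.IsSolvable ρ.range)
    (hn : ¬ ∀ g, ∃ c : k, (ρ g : Matrix (Fin 2) (Fin 2) k) = c • 1) :
    ∃ b : G, (∀ c : k, (ρ b : Matrix (Fin 2) (Fin 2) k) ≠ c • 1) ∧
      ∀ g, ρ b * (ρ g * ρ b * (ρ g)⁻¹) = (ρ g * ρ b * (ρ g)⁻¹) * ρ b := by
  classical
  have hex : ∃ n, ∀ y ∈ derivedSeries ρ.range n, ∃ c : k,
      ((y : GL (Fin 2) k) : Matrix (Fin 2) (Fin 2) k) = c • 1 := by
    obtain ⟨n, hn⟩ := hs.solvable
    refine ⟨n, fun y hy => ⟨1, ?_⟩⟩
    rw [hn, Subgroup.mem_bot] at hy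
    rw [hy]
    simp
  have hspec := Nat.find_spec hex
  have hmin := fun m (hm : m < Nat.find hex) => Nat.find_min hex hm
  generalize Nat.find hex = n at hspec hmin
  cases n with
  | zero =>
    exfalso
    apply hn
    intro g
    exact hspec ⟨ρ g, ⟨g, rfl⟩⟩ (by rw [derivedSeries_zero]; exact Subgroup.mem_top _)
  | succ m =>
    have h1 := hmin m (Nat.lt_succ_self m)
    push Not at h1
    obtain ⟨⟨_, ⟨b, rfl⟩⟩, hbD, hb⟩ := h1
    refine ⟨b, hb, fun g => ?_⟩
    have hc : (⟨ρ g, ⟨g, rfl⟩⟩ : ρ.range) * ⟨ρ b, ⟨b, rfl⟩⟩ * (⟨ρ g, ⟨g, rfl⟩⟩ : ρ.range)⁻¹ ∈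
        derivedSeries ρ.range m :=
      (derivedSeries_normal ρ.range m).conj_mem _ hbD _
    have hcm := Subgroup.commutator_mem_commutator hbD hc
    rw [← derivedSeries_succ] at hcm
    obtain ⟨c, hc'⟩ := hspec _ hcm
    exact comm_of_scalar (ρ b) (ρ g * ρ b * (ρ g)⁻¹) c hc'

/-- the entries of a matrix which conjugates a normal form into something commuting with it -/
lemma dich {P b γ : GL (Fin 2) k} {l m x : k}
    (hP : (b : Matrix (Fin 2) (Fin 2) k) * (P : Matrix (Fin 2) (Fin 2) k) =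
      (P : Matrix (Fin 2) (Fin 2) k) * !![l, x; 0, m])
    (hlx : l ≠ m ∧ x = 0 ∨ l = m ∧ x ≠ 0)
    (hc : b * (γ * b * γ⁻¹) = (γ * b * γ⁻¹) * b) :
    ((P⁻¹ * γ * P : GL (Fin 2) k) : Matrix (Fin 2) (Fin 2) k) 1 0 = 0 ∧
      (l ≠ m → ((P⁻¹ * γ * P : GL (Fin 2) k) : Matrix (Fin 2) (Fin 2) k) 0 1 = 0) ∨
    l ≠ m ∧ ((P⁻¹ * γ * P : GL (Fin 2) k) : Matrix (Fin 2) (Fin 2) k) 0 0 = 0 ∧
      ((P⁻¹ * γ * P : GL (Fin 2) k) : Matrix (Fin 2) (Fin 2) k) 1 1 = 0 := by
  -- everything in the new basis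
  have hD : ((P⁻¹ * b * P : GL (Fin 2) k) : Matrix (Fin 2) (Fin 2) k) = !![l, x; 0, m] := by
    rw [Units.val_mul, Units.val_mul, Matrix.mul_assoc, hP, ← Matrix.mul_assoc, ← Units.val_mul,
      inv_mul_cancel, Units.val_one, Matrix.one_mul]
  obtain ⟨D, hDe⟩ : ∃ D : GL (Fin 2) k, D = P⁻¹ * b * P := ⟨_, rfl⟩
  obtain ⟨g, hge⟩ : ∃ g : GL (Fin 2) k, g = P⁻¹ * γ * P := ⟨_, rfl⟩
  rw [← hDe] at hD
  rw [← hge]
  -- c = g D g⁻¹ commutes with D
  obtain ⟨c, hce⟩ : ∃ c : GL (Fin 2) k, c = g * D * g⁻¹ := ⟨_, rfl⟩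
  have h1 : g * D = c * g := by rw [hce]; group
  have h2 : D * c = c * D := by
    have : D * c = P⁻¹ * (b * (γ * b * γ⁻¹)) * P := by rw [hce, hDe, hge]; group
    rw [this, hc, hce, hDe, hge]
    group
  have hdet : (g : Matrix (Fin 2) (Fin 2) k).det ≠ 0 :=
    ((Matrix.isUnit_iff_isUnit_det _).1 g.isUnit).ne_zero
  rw [Matrix.det_fin_two] at hdet
  have e1 : ∀ i j, ((g * D : GL (Fin 2) k) : Matrix (Fin 2) (Fin 2) k) i j =
      ((c * g : GL (Fin 2) k) : Matrix (Fin 2) (Fin 2) k) i j := by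
    intro i j; rw [h1]
  have e2 : ∀ i j, ((D * c : GL (Fin 2) k) : Matrix (Fin 2) (Fin 2) k) i j =
      ((c * D : GL (Fin 2) k) : Matrix (Fin 2) (Fin 2) k) i j := by
    intro i j; rw [h2]
  simp only [Units.val_mul, hD, Matrix.mul_apply, Fin.sum_univ_two] at e1 e2
  have a00 := e1 0 0
  have a01 := e1 0 1
  have a10 := e1 1 0
  have a11 := e1 1 1
  have b00 := e2 0 0
  have b01 := e2 0 1
  have b10 := e2 1 0
  have b11 := e2 1 1
  simp only [Matrix.of_apply, Matrix.cons_val', Matrix.cons_val_zero, Matrix.cons_val_one,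
    Matrix.cons_val_fin_one, Matrix.empty_val'] at a00 a01 a10 a11 b00 b01 b10 b11
  generalize (g : Matrix (Fin 2) (Fin 2) k) 0 0 = p at *
  generalize (g : Matrix (Fin 2) (Fin 2) k) 0 1 = q at *
  generalize (g : Matrix (Fin 2) (Fin 2) k) 1 0 = r at *
  generalize (g : Matrix (Fin 2) (Fin 2) k) 1 1 = s at *
  generalize (c : Matrix (Fin 2) (Fin 2) k) 0 0 = c00 at *
  generalize (c : Matrix (Fin 2) (Fin 2) k) 0 1 = c01 at *
  generalize (c : Matrix (Fin 2) (Fin 2) k) 1 0 = c10 at *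
  generalize (c : Matrix (Fin 2) (Fin 2) k) 1 1 = c11 at *
  rcases hlx with ⟨hlm, rfl⟩ | ⟨rfl, hx⟩
  · -- two eigenvalues
    have hml : l - m ≠ 0 := sub_ne_zero.2 hlm
    have k01 : c01 = 0 := by
      have : (l - m) * c01 = 0 := by linear_combination b01
      exact (mul_eq_zero.1 this).resolve_left hml
    have k10 : c10 = 0 := by
      have : (l - m) * c10 = 0 := by linear_combination -b10
      exact (mul_eq_zero.1 this).resolve_left hml
    subst k01 k10
    by_cases hp : p = 0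
    · subst hp
      have hq : q ≠ 0 := by rintro rfl; simp at hdet
      have hr : r ≠ 0 := by rintro rfl; simp at hdet
      have k11 : c11 = l := by
        have : r * (c11 - l) = 0 := by linear_combination -a10
        exact sub_eq_zero.1 ((mul_eq_zero.1 this).resolve_left hr)
      have ks : s = 0 := by
        have : (l - m) * s = 0 := by linear_combination -a11 + s * k11 * (-1)
        exact (mul_eq_zero.1 this).resolve_left hml
      exact Or.inr ⟨hlm, rfl, ks⟩
    · have k00 : c00 = l := by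
        have : p * (c00 - l) = 0 := by linear_combination -a00
        exact sub_eq_zero.1 ((mul_eq_zero.1 this).resolve_left hp)
      have kq : q = 0 := by
        have : (l - m) * q = 0 := by linear_combination -a01 + q * k00 * (-1)
        exact (mul_eq_zero.1 this).resolve_left hml
      subst kq
      have hs : s ≠ 0 := by rintro rfl; simp at hdet
      have k11 : c11 = m := by
        have : s * (c11 - m) = 0 := by linear_combination -a11
        exact sub_eq_zero.1 ((mul_eq_zero.1 this).resolve_left hs)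
      have kr : r = 0 := by
        have : (l - m) * r = 0 := by linear_combination a10 + r * k11
        exact (mul_eq_zero.1 this).resolve_left hml
      exact Or.inl ⟨kr, fun _ => rfl⟩
  · -- one eigenvalue
    have k10 : c10 = 0 := by
      have : x * c10 = 0 := by linear_combination b00
      exact (mul_eq_zero.1 this).resolve_left hx
    have k11 : c11 = c00 := by
      have : x * (c11 - c00) = 0 := by linear_combination b01
      exact sub_eq_zero.1 ((mul_eq_zero.1 this).resolve_left hx)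
    subst k10 k11
    refine Or.inl ⟨?_, fun h => absurd rfl h⟩
    by_contra hr
    have kl : c11 = l := by
      have : r * (c11 - l) = 0 := by linear_combination -a10
      exact sub_eq_zero.1 ((mul_eq_zero.1 this).resolve_left hr)
    have : r * x = 0 := by linear_combination a11 + s * kl
    exact (mul_ne_zero hr hx) this

/-- trace and determinant through the diagonal characters -/
lemma tri_tr {H : Type} [Group H] (σ : H →* GL (Fin 2) k)
    (h : ∀ g, (σ g : Matrix (Fin 2) (Fin 2) k) 1 0 = 0) :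
    ∃ χ₁ χ₂ : H →* kˣ, (∀ g, (σ g : Matrix (Fin 2) (Fin 2) k).trace = χ₁ g + χ₂ g ∧
      (σ g : Matrix (Fin 2) (Fin 2) k).det = χ₁ g * χ₂ g) ∧
      ∀ g, (χ₁ g : k) = (σ g : Matrix (Fin 2) (Fin 2) k) 0 0 ∧
        (χ₂ g : k) = (σ g : Matrix (Fin 2) (Fin 2) k) 1 1 := by
  obtain ⟨χ₁, χ₂, hχ⟩ := tri σ h
  refine ⟨χ₁, χ₂, fun g => ⟨?_, ?_⟩, hχ⟩
  · rw [Matrix.trace_fin_two, (hχ g).1, (hχ g).2]
  · rw [Matrix.det_fin_two, (hχ g).1, (hχ g).2, h g, mul_zero, sub_zero]

/-- **[GRP]** -/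
theorem grp : Vale.Agent.P022.Sv.GrpStmt := by
  intro k _ _ _ G _ ρ hs
  by_cases hn : ∀ g, ∃ c : k, (ρ g : Matrix (Fin 2) (Fin 2) k) = c • 1
  · left
    obtain ⟨χ₁, χ₂, h, -⟩ := tri_tr ρ (fun g => by
      obtain ⟨c, hc⟩ := hn g
      rw [hc]
      simp)
    exact ⟨χ₁, χ₂, h⟩
  obtain ⟨b, hb, hcomm⟩ := exists_comm ρ hs hn
  obtain ⟨P, l, m, x, hP, hlx⟩ := normal _ hb
  let σ : G →* GL (Fin 2) k :=
    { toFun := fun g => P⁻¹ * ρ g * P
      map_one' := by rw [map_one]; group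
      map_mul' := fun g g' => by rw [map_mul]; group }
  have hσ : ∀ g, σ g = P⁻¹ * ρ g * P := fun g => rfl
  have htr : ∀ g, (ρ g : Matrix (Fin 2) (Fin 2) k).trace =
      (σ g : Matrix (Fin 2) (Fin 2) k).trace := by
    intro g
    rw [hσ, Units.val_mul, Units.val_mul, Matrix.trace_units_conj']
  have hdt : ∀ g, (ρ g : Matrix (Fin 2) (Fin 2) k).det =
      (σ g : Matrix (Fin 2) (Fin 2) k).det := by
    intro g
    rw [hσ, Units.val_mul, Units.val_mul, Matrix.det_units_conj']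
  have hσb : (σ b : Matrix (Fin 2) (Fin 2) k) = !![l, x; 0, m] := by
    rw [hσ, Units.val_mul, Units.val_mul, Matrix.mul_assoc, hP, ← Matrix.mul_assoc,
      ← Units.val_mul, inv_mul_cancel, Units.val_one, Matrix.one_mul]
  have hd := fun g => dich hP hlx (hcomm g)
  simp only [← hσ] at hd
  by_cases hall : ∀ g, (σ g : Matrix (Fin 2) (Fin 2) k) 1 0 = 0
  · left
    obtain ⟨χ₁, χ₂, h, -⟩ := tri_tr σ hall
    exact ⟨χ₁, χ₂, fun g => by rw [htr, hdt]; exact h g⟩
  right
  push Not at hall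
  obtain ⟨g₀, hg₀⟩ := hall
  have hlm : l ≠ m := by
    rcases hd g₀ with h | h
    · exact absurd h.1 hg₀
    · exact h.1
  -- off M the matrices are antidiagonal
  have hoff : ∀ g, (σ g : Matrix (Fin 2) (Fin 2) k) 1 0 ≠ 0 →
      (σ g : Matrix (Fin 2) (Fin 2) k) 0 0 = 0 ∧ (σ g : Matrix (Fin 2) (Fin 2) k) 1 1 = 0 := by
    intro g hg
    rcases hd g with h | h
    · exact absurd h.1 hg
    · exact h.2
  have hmul : ∀ g g' i j, (σ (g * g') : Matrix (Fin 2) (Fin 2) k) i j =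
      (σ g : Matrix (Fin 2) (Fin 2) k) i 0 * (σ g' : Matrix (Fin 2) (Fin 2) k) 0 j +
      (σ g : Matrix (Fin 2) (Fin 2) k) i 1 * (σ g' : Matrix (Fin 2) (Fin 2) k) 1 j := by
    intro g g' i j
    rw [map_mul, Units.val_mul, Matrix.mul_apply, Fin.sum_univ_two]
  have hdet : ∀ g, (σ g : Matrix (Fin 2) (Fin 2) k) 0 0 * (σ g : Matrix (Fin 2) (Fin 2) k) 1 1 -
      (σ g : Matrix (Fin 2) (Fin 2) k) 0 1 * (σ g : Matrix (Fin 2) (Fin 2) k) 1 0 ≠ 0 := by
    intro g
    rw [← Matrix.det_fin_two]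
    exact ((Matrix.isUnit_iff_isUnit_det _).1 (σ g).isUnit).ne_zero
  let M : Subgroup G :=
    { carrier := {g | (σ g : Matrix (Fin 2) (Fin 2) k) 1 0 = 0}
      mul_mem' := by
        intro g g' hg hg'
        simp only [Set.mem_setOf_eq] at hg hg' ⊢
        rw [hmul, hg, hg', zero_mul, mul_zero, add_zero]
      one_mem' := by
        simp
      inv_mem' := by
        intro g hg
        simp only [Set.mem_setOf_eq] at hg ⊢
        by_contra hg'
        obtain ⟨-, h1⟩ := hoff _ hg'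
        have h2 := hmul g g⁻¹ 1 1
        rw [mul_inv_cancel, hg, h1, zero_mul, mul_zero, add_zero] at h2
        simp at h2 }
  have hM : ∀ g, g ∈ M ↔ (σ g : Matrix (Fin 2) (Fin 2) k) 1 0 = 0 := fun g => Iff.rfl
  obtain ⟨χ₁, χ₂, h, h'⟩ := tri_tr (σ.comp M.subtype) (fun g => (hM g).1 g.2)
  refine ⟨M, χ₁, χ₂, ?_, ?_, ?_, ?_⟩
  · rw [Subgroup.index_eq_two_iff]
    refine ⟨g₀, fun g => ?_⟩
    by_cases hg : (σ g : Matrix (Fin 2) (Fin 2) k) 1 0 = 0
    · right
      refine ⟨(hM g).2 hg, ?_⟩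
      rw [hM, hmul, hg, zero_mul, zero_add]
      refine mul_ne_zero ?_ hg₀
      intro h1
      apply hdet g
      rw [h1, hg]
      ring
    · left
      refine ⟨?_, fun h => hg ((hM g).1 h)⟩
      rw [hM, hmul, (hoff g hg).2, (hoff g₀ hg₀).1, mul_zero, zero_mul, add_zero]
  · intro y
    rw [htr]
    exact (h y).1
  · intro g hg
    have hg' : (σ g : Matrix (Fin 2) (Fin 2) k) 1 0 ≠ 0 := fun h => hg ((hM g).2 h)
    rw [htr, Matrix.trace_fin_two, (hoff g hg').1, (hoff g hg').2, add_zero]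
  · have hbM : b ∈ M := by
      rw [hM, hσb]
      simp
    refine ⟨⟨b, hbM⟩, fun he => hlm ?_⟩
    have h1 := (h' ⟨b, hbM⟩).1
    have h2 := (h' ⟨b, hbM⟩).2
    rw [← he, h1] at h2
    have h3 : (σ b : Matrix (Fin 2) (Fin 2) k) 0 0 = (σ b : Matrix (Fin 2) (Fin 2) k) 1 1 := h2
    rw [hσb] at h3
    simpa using h3

end Vale.Agent.P022.H783.Sv
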